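import Vale.Agent.P181.GN.H317.Lit

set_option autoImplicit false

/-!
# P181, GN Q6b: relabelling of the letters

`Th h` sends the letter `(j, alpha)` to `(h |alpha| j, alpha)`, or to `1` if this is `(0, 0)`. It
commutes with the raising operators `EU` for every `h`.
-/

open MvPolynomial

namespace Vale.Agent.P181.GN.H481

open Vale.Agent.P181.GN Vale.Agent.P181.GN.H317

variable {k : ℕ}

/-! ### Linear functionals of monomials -/

section lin

variable {σ : Type*}

/-- the linear functional with weights `g` -/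
def lin (g : σ → ℕ) (v : σ →₀ ℕ) : ℕ := v.sum fun p n => n * g p

lemma lin_zero (g : σ → ℕ) : lin g 0 = 0 := Finsupp.sum_zero_index

lemma lin_add (g : σ → ℕ) (u v : σ →₀ ℕ) : lin g (u + v) = lin g u + lin g v := by
  classical
  exact Finsupp.sum_add_index' (fun _ => Nat.zero_mul _) fun _ _ _ => Nat.add_mul _ _ _

lemma lin_single (g : σ → ℕ) (p : σ) (n : ℕ) : lin g (Finsupp.single p n) = n * g p :=
  Finsupp.sum_single_index (Nat.zero_mul _)

lemma lin_smul (g : σ → ℕ) (n : ℕ) (v : σ →₀ ℕ) : lin g (n • v) = n * lin g v := by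
  induction n with
  | zero => rw [zero_smul, lin_zero, zero_mul]
  | succ n ih => rw [succ_nsmul, lin_add, ih]; ring

lemma lin_le {g1 g2 : σ → ℕ} {v : σ →₀ ℕ} (h : ∀ p ∈ v.support, g1 p ≤ g2 p) :
    lin g1 v ≤ lin g2 v :=
  Finset.sum_le_sum fun p hp => Nat.mul_le_mul_left _ (h p hp)

lemma lin_congr {g1 g2 : σ → ℕ} {v : σ →₀ ℕ} (h : ∀ p ∈ v.support, g1 p = g2 p) :
    lin g1 v = lin g2 v :=
  Finset.sum_congr rfl fun p hp => by
    show v p * g1 p = v p * g2 p
    rw [h p hp]

lemma lin_addw (g1 g2 : σ → ℕ) (v : σ →₀ ℕ) :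
    lin (fun p => g1 p + g2 p) v = lin g1 v + lin g2 v := by
  unfold lin Finsupp.sum
  rw [← Finset.sum_add_distrib]
  exact Finset.sum_congr rfl fun p _ => Nat.mul_add _ _ _

lemma lin_mulw (c : ℕ) (g : σ → ℕ) (v : σ →₀ ℕ) :
    lin (fun p => c * g p) v = c * lin g v := by
  unfold lin Finsupp.sum
  rw [Finset.mul_sum]
  exact Finset.sum_congr rfl fun p _ => by ring

lemma le_lin (g : σ → ℕ) (v : σ →₀ ℕ) (p : σ) : v p * g p ≤ lin g v := by
  by_cases hp : p ∈ v.support
  · exact Finset.single_le_sum (f := fun p => v p * g p) (fun _ _ => Nat.zero_le _) hp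
  · rw [Finsupp.notMem_support_iff.1 hp, zero_mul]
    exact Nat.zero_le _

lemma lin_ite [DecidableEq σ] (v : σ →₀ ℕ) (p : σ) :
    lin (fun q => if q = p then 1 else 0) v = v p := by
  have h1 : ∀ q ∈ v.support, v q * (if q = p then 1 else 0) = if q = p then v q else 0 := by
    intro q _
    split_ifs
    · rw [mul_one]
    · rw [mul_zero]
  refine (Finset.sum_congr rfl h1).trans ?_
  rw [Finset.sum_ite_eq' v.support p (fun q => v q)]
  split_ifs with h
  · rfl
  · exact (Finsupp.notMem_support_iff.1 h).symm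

lemma lin_mapDomain {τ : Type*} (f : σ → τ) (g : τ → ℕ) (v : σ →₀ ℕ) :
    lin g (v.mapDomain f) = lin (fun p => g (f p)) v :=
  Finsupp.sum_mapDomain_index (fun _ => Nat.zero_mul _) fun _ _ _ => Nat.add_mul _ _ _

end lin

/-! ### Projections -/

section proj

variable {σ : Type*}

open Classical in
/-- the part of a polynomial with the monomials in `S` -/
noncomputable def pj (S : (σ →₀ ℕ) → Prop) : MvPolynomial σ ℂ →ₗ[ℂ] MvPolynomial σ ℂ :=
  (basisMonomials σ ℂ).constr ℂ (fun v => if S v then monomial v 1 else 0)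

open Classical in
lemma pj_monomial (S : (σ →₀ ℕ) → Prop) (v : σ →₀ ℕ) (a : ℂ) :
    pj S (monomial v a) = if S v then monomial v a else 0 := by
  have h1 : (monomial v a : MvPolynomial σ ℂ) = a • basisMonomials σ ℂ v := by
    rw [coe_basisMonomials, smul_monomial, smul_eq_mul, mul_one]
  rw [h1, map_smul, pj, Module.Basis.constr_basis]
  split_ifs
  · rw [coe_basisMonomials]
  · rw [smul_zero]

open Classical in
lemma coeff_pj (S : (σ →₀ ℕ) → Prop) (f : MvPolynomial σ ℂ) (v : σ →₀ ℕ) :
    coeff v (pj S f) = if S v then coeff v f else 0 := by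
  induction f using MvPolynomial.induction_on' with
  | monomial u a =>
    rw [pj_monomial]
    by_cases huv : u = v
    · subst huv
      split_ifs <;> simp
    · rw [coeff_monomial, if_neg huv]
      split_ifs
      · rw [coeff_monomial, if_neg huv]
      · rw [coeff_monomial, if_neg huv]
      · simp
      · simp
  | add p q hp hq =>
    rw [map_add, coeff_add, hp, hq, coeff_add]
    split_ifs <;> simp

end proj

/-! ### Types of monomials -/

/-- the class of a letter -/
def nm (p : Lt k) : ℕ × ℕ := (p.1, ∑ i, p.2 i)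

/-- the type of a monomial -/
noncomputable def ty (v : Lt k →₀ ℕ) : ℕ × ℕ →₀ ℕ := v.mapDomain nm

/-- the letter in the image of a raising operator -/
def mv (r i : Fin k) (p : Lt k) : Lt k := (p.1, p.2 - Pi.single i 1 + Pi.single r 1)

lemma sum_mv (r i : Fin k) (α : Fin k → ℕ) (h : α i ≠ 0) :
    ∑ j, (α - Pi.single i 1 + Pi.single r 1 : Fin k → ℕ) j = ∑ j, α j := by
  have h1 : α = (α - Pi.single i 1) + Pi.single i 1 := by
    funext j
    simp only [Pi.add_apply, Pi.sub_apply]
    by_cases hj : j = i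
    · subst hj
      rw [Pi.single_eq_same]
      omega
    · rw [Pi.single_eq_of_ne hj]
      omega
  have h2 : ∀ (β : Fin k → ℕ) (s : Fin k), ∑ j, (β + Pi.single s 1 : Fin k → ℕ) j =
      ∑ j, β j + 1 := by
    intro β s
    simp only [Pi.add_apply]
    rw [Finset.sum_add_distrib, Finset.sum_pi_single']
    simp
  rw [h2]
  conv_rhs => rw [h1]
  rw [h2]

lemma nm_mv (r i : Fin k) (p : Lt k) (h : p.2 i ≠ 0) : nm (mv r i p) = nm p := by
  unfold nm mv
  rw [sum_mv r i p.2 h]

lemma ty_mv (r i : Fin k) (v : Lt k →₀ ℕ) (p : Lt k) (hp : p ∈ v.support) (h : p.2 i ≠ 0) :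
    ty (v - Finsupp.single p 1 + Finsupp.single (mv r i p) 1) = ty v := by
  have h1 : v = (v - Finsupp.single p 1) + Finsupp.single p 1 := by
    refine (tsub_add_cancel_of_le ?_).symm
    rw [Finsupp.single_le_iff]
    exact Nat.one_le_iff_ne_zero.2 (Finsupp.mem_support_iff.1 hp)
  unfold ty
  rw [Finsupp.mapDomain_add, Finsupp.mapDomain_single, nm_mv r i p h]
  conv_rhs => rw [h1]
  rw [Finsupp.mapDomain_add, Finsupp.mapDomain_single]

lemma EU_monomial (r i : Fin k) (v : Lt k →₀ ℕ) (a : ℂ) :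
    EU r i (monomial v a) = ∑ p ∈ v.support,
      (a * v p * p.2 i) • monomial (v - Finsupp.single p 1 + Finsupp.single (mv r i p) 1) 1 := by
  unfold EU
  rw [mkDerivation_monomial, Finsupp.sum, Finset.smul_sum]
  refine Finset.sum_congr rfl fun p _ => ?_
  rw [smul_eq_mul, X, mul_smul_comm, monomial_mul, smul_smul, mul_one]
  show (a * (p.2 i : ℂ)) • monomial (v - Finsupp.single p 1 + Finsupp.single (mv r i p) 1)
    (v p : ℂ) = _
  rw [smul_monomial, smul_monomial, smul_eq_mul, smul_eq_mul, mul_one]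
  congr 1
  ring

lemma pj_EU (r i : Fin k) (S : (ℕ × ℕ →₀ ℕ) → Prop) (f : Po k) :
    pj (fun v => S (ty v)) (EU r i f) = EU r i (pj (fun v => S (ty v)) f) := by
  classical
  induction f using MvPolynomial.induction_on' with
  | monomial v a =>
    rw [pj_monomial, EU_monomial, map_sum]
    have h1 : ∀ p ∈ v.support, pj (fun v => S (ty v)) ((a * v p * p.2 i) •
        monomial (v - Finsupp.single p 1 + Finsupp.single (mv r i p) 1) (1 : ℂ)) =
        if S (ty v) then (a * v p * p.2 i) •
          monomial (v - Finsupp.single p 1 + Finsupp.single (mv r i p) 1) (1 : ℂ) else 0 := by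
      intro p hp
      rw [map_smul, pj_monomial]
      by_cases h : p.2 i = 0
      · rw [h, Nat.cast_zero, mul_zero, zero_smul, zero_smul]
        split_ifs <;> rfl
      · rw [ty_mv r i v p hp h]
        split_ifs
        · rfl
        · rw [smul_zero]
    rw [Finset.sum_congr rfl h1]
    split_ifs
    · rw [EU_monomial]
    · rw [Finset.sum_const_zero, map_zero]
  | add p q hp hq => simp only [map_add, hp, hq]

lemma UH_mono {P Q : (Lt k →₀ ℕ) → Prop} (h : ∀ v, P v → Q v) : UH P ≤ UH Q :=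
  fun _ hf => ⟨fun v hv => h v (hf.1 v hv), hf.2⟩

/-- **Splitting by types.** -/
theorem split {γ : Type} [DecidableEq γ] (P : (Lt k →₀ ℕ) → Prop) [FiniteDimensional ℂ (UH P)]
    (c : (ℕ × ℕ →₀ ℕ) → γ) (K : Finset γ) (hK : ∀ v, P v → c (ty v) ∈ K) (B : ℕ)
    (hB : ∀ κ ∈ K, Module.finrank ℂ (UH fun v => P v ∧ c (ty v) = κ) ≤ B) :
    Module.finrank ℂ (UH P) ≤ K.card * B := by
  classical
  let W : K → Submodule ℂ (Po k) := fun κ => UH fun v => P v ∧ c (ty v) = κ.1
  have hW : ∀ κ, W κ ≤ UH P := fun κ => UH_mono fun v hv => hv.1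
  have hfd : ∀ κ, FiniteDimensional ℂ (W κ) := fun κ =>
    Submodule.finiteDimensional_of_le (hW κ)
  let Φ : UH P →ₗ[ℂ] (∀ κ : K, W κ) := LinearMap.pi fun κ =>
    ((pj fun v => c (ty v) = κ.1).domRestrict (UH P)).codRestrict (W κ) (by
      rintro ⟨f, hf⟩
      show pj (fun v => c (ty v) = κ.1) f ∈ W κ
      refine ⟨fun v hv => ?_, fun r i hri => ?_⟩
      · rw [coeff_pj] at hv
        by_cases h : c (ty v) = κ.1
        · rw [if_pos h] at hv
          exact ⟨hf.1 v hv, h⟩
        · rw [if_neg h] at hv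
          exact absurd rfl hv
      · rw [← pj_EU r i (fun T => c T = κ.1), hf.2 r i hri, map_zero])
  have hinj : Function.Injective Φ := by
    rw [← LinearMap.ker_eq_bot, LinearMap.ker_eq_bot']
    rintro ⟨f, hf⟩ h0
    apply Subtype.ext
    show f = 0
    apply MvPolynomial.ext
    intro v
    rw [coeff_zero]
    by_contra hv
    have h1 : pj (fun v' => c (ty v') = c (ty v)) f = 0 := by
      have h2 := congrFun h0 ⟨c (ty v), hK v (hf.1 v hv)⟩
      exact congrArg Subtype.val h2
    have h3 := congrArg (coeff v) h1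
    rw [coeff_pj, if_pos rfl, coeff_zero] at h3
    exact hv h3
  have h1 := LinearMap.finrank_le_finrank_of_injective hinj
  rw [Module.finrank_pi_fintype] at h1
  refine h1.trans ?_
  calc ∑ κ : K, Module.finrank ℂ (W κ) ≤ ∑ _κ : K, B :=
        Finset.sum_le_sum fun κ _ => hB κ.1 κ.2
    _ = K.card * B := by rw [Finset.sum_const, Finset.card_univ, Fintype.card_coe, smul_eq_mul]

/-! ### The relabelling -/

/-- the relabelling of a letter -/
def tl (h : ℕ → ℕ → ℕ) (p : Lt k) : Lt k := (h (∑ i, p.2 i) p.1, p.2)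

/-- the exponent of a letter, `(0, 0)` is `1` -/
noncomputable def ev (q : Lt k) : Lt k →₀ ℕ := if q = 0 then 0 else Finsupp.single q 1

/-- the relabelling of a monomial -/
noncomputable def Eh (h : ℕ → ℕ → ℕ) (v : Lt k →₀ ℕ) : Lt k →₀ ℕ :=
  v.sum fun p n => n • ev (tl h p)

/-- the relabelling -/
noncomputable def Th (h : ℕ → ℕ → ℕ) : Po k →ₐ[ℂ] Po k :=
  aeval fun p => monomial (ev (tl h p)) (1 : ℂ)

lemma Th_X (h : ℕ → ℕ → ℕ) (p : Lt k) : Th h (X p) = monomial (ev (tl h p)) 1 := aeval_X _ _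

lemma Th_monomial (h : ℕ → ℕ → ℕ) (v : Lt k →₀ ℕ) (a : ℂ) :
    Th h (monomial v a) = monomial (Eh h v) a := by
  unfold Th
  rw [aeval_monomial]
  have h1 : (v.prod fun p n => (monomial (ev (tl h p)) (1 : ℂ) : Po k) ^ n) =
      monomial (Eh h v) 1 := by
    unfold Eh Finsupp.sum Finsupp.prod
    rw [monomial_sum_one]
    refine Finset.prod_congr rfl fun p _ => ?_
    show (monomial (ev (tl h p)) (1 : ℂ) : Po k) ^ (v p) = monomial (v p • ev (tl h p)) 1
    rw [monomial_pow, one_pow]
  rw [h1, algebraMap_eq, C_mul_monomial, mul_one]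

lemma EU_C (r i : Fin k) (a : ℂ) : EU r i (C a : Po k) = 0 := (EU r i).map_algebraMap a

lemma EU_X (r i : Fin k) (p : Lt k) : EU r i (X p) = (p.2 i : ℂ) • X (mv r i p) := by
  unfold EU
  rw [mkDerivation_X]
  rfl

lemma mv_ne (r i : Fin k) (p : Lt k) : mv r i p ≠ 0 := by
  intro h
  have h1 := congrFun (congrArg Prod.snd h) r
  simp [mv] at h1

lemma Th_EU_X (h : ℕ → ℕ → ℕ) (r i : Fin k) (p : Lt k) :
    Th h (EU r i (X p)) = EU r i (Th h (X p)) := by
  rw [EU_X, map_smul, Th_X, Th_X]
  by_cases h0 : p.2 i = 0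
  · rw [h0, Nat.cast_zero, zero_smul]
    unfold ev
    split_ifs with h1
    · have : (monomial (0 : Lt k →₀ ℕ) (1 : ℂ) : Po k) = C 1 := rfl
      rw [this]
      exact (EU_C r i 1).symm
    · have h2 : (monomial (Finsupp.single (tl h p) 1) (1 : ℂ) : Po k) = X (tl h p) := rfl
      rw [h2, EU_X]
      show _ = ((p.2 i : ℕ) : ℂ) • _
      rw [h0, Nat.cast_zero, zero_smul]
  · have h1 : tl h (mv r i p) = mv r i (tl h p) := by
      unfold tl mv
      simp only
      rw [sum_mv r i p.2 h0]
    have h2 : tl h p ≠ 0 := by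
      intro h3
      have h4 := congrFun (congrArg Prod.snd h3) i
      exact h0 h4
    rw [h1]
    unfold ev
    rw [if_neg (mv_ne r i _), if_neg h2]
    show _ • X (mv r i (tl h p)) = EU r i (X (tl h p))
    rw [EU_X]
    rfl

lemma Th_EU (h : ℕ → ℕ → ℕ) (r i : Fin k) (f : Po k) :
    Th h (EU r i f) = EU r i (Th h f) := by
  induction f using MvPolynomial.induction_on with
  | C a =>
    have h1 : EU r i (C a : Po k) = 0 := EU_C r i a
    have h2 : Th h (C a : Po k) = C a := aeval_C _ _
    rw [h1, map_zero, h2, h1]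
  | add p q hp hq => simp only [map_add, hp, hq]
  | mul_X p n hp =>
    rw [Derivation.leibniz, map_add, map_mul, Derivation.leibniz]
    simp only [smul_eq_mul, map_mul]
    rw [hp, Th_EU_X]

lemma Th_eq_sum (h : ℕ → ℕ → ℕ) (f : Po k) :
    Th h f = ∑ v ∈ f.support, monomial (Eh h v) (coeff v f) := by
  conv_lhs => rw [f.as_sum]
  rw [map_sum]
  exact Finset.sum_congr rfl fun v _ => Th_monomial h v _

open Classical in
lemma coeff_Th (h : ℕ → ℕ → ℕ) (f : Po k) (u : Lt k →₀ ℕ) :
    coeff u (Th h f) = ∑ v ∈ f.support, if Eh h v = u then coeff v f else 0 := by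
  rw [Th_eq_sum, coeff_sum]
  exact Finset.sum_congr rfl fun v _ => coeff_monomial _ _ _

/-- **Comparison by a relabelling.** -/
theorem relabel (h : ℕ → ℕ → ℕ) (P Q : (Lt k →₀ ℕ) → Prop) [FiniteDimensional ℂ (UH Q)]
    (hPQ : ∀ v, P v → Q (Eh h v))
    (hinj : ∀ v v', P v → P v' → Eh h v = Eh h v' → v = v') :
    Module.finrank ℂ (UH P) ≤ Module.finrank ℂ (UH Q) := by
  classical
  let Φ : UH P →ₗ[ℂ] UH Q := ((Th h).toLinearMap.domRestrict (UH P)).codRestrict (UH Q) (by
    rintro ⟨f, hf⟩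
    show Th h f ∈ UH Q
    refine ⟨fun u hu => ?_, fun r i hri => ?_⟩
    · rw [coeff_Th] at hu
      obtain ⟨v, hv, hv2⟩ := Finset.exists_ne_zero_of_sum_ne_zero hu
      split_ifs at hv2 with h3
      · rw [← h3]
        exact hPQ v (hf.1 v hv2)
      · exact absurd rfl hv2
    · rw [← Th_EU, hf.2 r i hri, map_zero])
  refine LinearMap.finrank_le_finrank_of_injective (f := Φ) ?_
  rw [← LinearMap.ker_eq_bot, LinearMap.ker_eq_bot']
  rintro ⟨f, hf⟩ h0
  apply Subtype.ext
  show f = 0
  have h0' : Th h f = 0 := congrArg Subtype.val h0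
  apply MvPolynomial.ext
  intro v
  rw [coeff_zero]
  by_contra hv
  have h1 := congrArg (coeff (Eh h v)) h0'
  rw [coeff_Th, coeff_zero, Finset.sum_eq_single v] at h1
  · rw [if_pos rfl] at h1
    exact hv h1
  · intro v' hv' hne
    rw [if_neg]
    intro h2
    exact hne (hinj v' v (hf.1 v' (mem_support_iff.1 hv')) (hf.1 v hv) h2)
  · intro h2
    exact absurd (mem_support_iff.2 hv) h2

lemma Eh_add (h : ℕ → ℕ → ℕ) (u v : Lt k →₀ ℕ) : Eh h (u + v) = Eh h u + Eh h v := by
  classical
  exact Finsupp.sum_add_index' (fun _ => zero_smul _ _) fun _ _ _ => add_smul _ _ _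

lemma Eh_single (h : ℕ → ℕ → ℕ) (p : Lt k) (n : ℕ) :
    Eh h (Finsupp.single p n) = n • ev (tl h p) := Finsupp.sum_single_index (zero_smul _ _)

lemma lin_ev (g : Lt k → ℕ) (hg : g 0 = 0) (q : Lt k) : lin g (ev q) = g q := by
  unfold ev
  split_ifs with h
  · rw [h, hg, lin_zero]
  · rw [lin_single, one_mul]

lemma lin_Eh (g : Lt k → ℕ) (hg : g 0 = 0) (h : ℕ → ℕ → ℕ) (v : Lt k →₀ ℕ) :
    lin g (Eh h v) = lin (fun p => g (tl h p)) v := by
  induction v using Finsupp.induction_linear with
  | zero => unfold Eh; rw [Finsupp.sum_zero_index, lin_zero, lin_zero]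
  | add u v hu hv => rw [Eh_add, lin_add, lin_add, hu, hv]
  | single p n => rw [Eh_single, lin_smul, lin_ev g hg, lin_single]

lemma Eh_apply (h : ℕ → ℕ → ℕ) (v : Lt k →₀ ℕ) (u : Lt k) (hu : u ≠ 0) :
    Eh h v u = lin (fun p => if tl h p = u then 1 else 0) v := by
  rw [← lin_ite (Eh h v) u, lin_Eh _ (if_neg (Ne.symm hu))]

lemma Eh_zero (h : ℕ → ℕ → ℕ) (v : Lt k →₀ ℕ) : Eh h v 0 = 0 := by
  induction v using Finsupp.induction_linear with
  | zero => unfold Eh; rw [Finsupp.sum_zero_index]; rfl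
  | add u v hu hv => rw [Eh_add, Finsupp.add_apply, hu, hv]
  | single p n =>
    rw [Eh_single, Finsupp.smul_apply]
    unfold ev
    split_ifs with h1
    · simp
    · rw [Finsupp.single_eq_of_ne (Ne.symm h1)]
      simp

/-- reading off a multiplicity -/
lemma read_off (h : ℕ → ℕ → ℕ) (v : Lt k →₀ ℕ) (q : Lt k) (hq : tl h q ≠ 0)
    (hu : ∀ p, tl h p = tl h q → p = q) : Eh h v (tl h q) = v q := by
  rw [Eh_apply h v _ hq, ← lin_ite v q]
  refine lin_congr fun p _ => ?_
  by_cases h1 : p = q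
  · rw [h1, if_pos rfl, if_pos rfl]
  · rw [if_neg h1, if_neg fun h2 => h1 (hu p h2)]

/-! ### The classes -/

/-- the relabelling of a class: `q` the large letter, `x` the unused index -/
def hh (q : ℕ × ℕ) (x : ℕ) (κ j : ℕ) : ℕ :=
  if κ = 0 then (if q.2 = 0 ∧ j = q.1 then 0 else j - 1)
  else if κ = q.2 then Equiv.swap q.1 x j else j

lemma hh_zero (q : ℕ × ℕ) (x j : ℕ) :
    hh q x 0 j = if q.2 = 0 ∧ j = q.1 then 0 else j - 1 := if_pos rfl

lemma hh_pos (q : ℕ × ℕ) (x κ j : ℕ) (h : κ ≠ 0) :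
    hh q x κ j = if κ = q.2 then Equiv.swap q.1 x j else j := if_neg h

lemma hh_inj_pos (q : ℕ × ℕ) (x κ : ℕ) (h : κ ≠ 0) {j j' : ℕ}
    (hj : hh q x κ j = hh q x κ j') : j = j' := by
  rw [hh_pos _ _ _ _ h, hh_pos _ _ _ _ h] at hj
  split_ifs at hj
  · exact (Equiv.swap q.1 x).injective hj
  · exact hj

lemma eq_zero_of_sum {α : Fin k → ℕ} (h : ∑ i, α i = 0) : α = 0 := by
  funext i
  exact (Finset.sum_eq_zero_iff.1 h) i (Finset.mem_univ i)

lemma one_le_sz {p : Lt k} (h : p ≠ 0) : 1 ≤ sz p := by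
  by_contra hc
  apply h
  unfold sz at hc
  exact Prod.ext (by show p.1 = 0; omega) (eq_zero_of_sum (by omega))

lemma sz_zero : sz (0 : Lt k) = 0 := by
  unfold sz
  simp

theorem hh_inj (q : ℕ × ℕ) (x : ℕ) (v v' : Lt k →₀ ℕ) (h1 : v 0 = 0) (h1' : v' 0 = 0)
    (hx : q.2 = 0 → v (q.1, 0) = v' (q.1, 0)) (hxs : xs v = xs v')
    (hE : Eh (hh q x) v = Eh (hh q x) v') : v = v' := by
  have key : ∀ p : Lt k, p ≠ (1, 0) → v p = v' p := by
    rintro ⟨j, α⟩ hp
    by_cases hα : ∑ i, α i = 0
    · have hα0 := eq_zero_of_sum hα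
      subst hα0
      by_cases hq : q.2 = 0 ∧ j = q.1
      · rw [hq.2]
        exact hx hq.1
      · rcases j with _ | _ | j
        · exact h1.trans h1'.symm
        · exact absurd rfl hp
        · have ht : tl (hh q x) ((j + 2, 0) : Lt k) = (j + 1, 0) := by
            unfold tl
            simp only
            rw [hα, hh_zero, if_neg hq]
            rfl
          have hne : tl (hh q x) ((j + 2, 0) : Lt k) ≠ 0 := by
            rw [ht]
            intro h2
            exact absurd (congrArg Prod.fst h2) (Nat.succ_ne_zero j)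
          have hu : ∀ p : Lt k, tl (hh q x) p = tl (hh q x) (j + 2, 0) → p = (j + 2, 0) := by
            rintro ⟨j', α'⟩ h2
            rw [ht] at h2
            have h3 : α' = 0 := congrArg Prod.snd h2
            have h4 : hh q x (∑ i, α' i) j' = j + 1 := congrArg Prod.fst h2
            subst h3
            rw [hα, hh_zero] at h4
            split_ifs at h4
            have h5 : j' = j + 2 := by omega
            rw [h5]
          have e1 := read_off (hh q x) v _ hne hu
          have e2 := read_off (hh q x) v' _ hne hu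
          show v (j + 2, 0) = v' (j + 2, 0)
          rw [← e1, ← e2, hE]
    · have hne : tl (hh q x) ((j, α) : Lt k) ≠ 0 := by
        intro h2
        have h3 : α = 0 := congrArg Prod.snd h2
        apply hα
        rw [h3]
        simp
      have hu : ∀ p : Lt k, tl (hh q x) p = tl (hh q x) (j, α) → p = (j, α) := by
        rintro ⟨j', α'⟩ h2
        have h3 : α' = α := congrArg Prod.snd h2
        have h4 : hh q x (∑ i, α' i) j' = hh q x (∑ i, α i) j := congrArg Prod.fst h2
        subst h3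
        rw [hh_inj_pos q x _ hα h4]
      have e1 := read_off (hh q x) v _ hne hu
      have e2 := read_off (hh q x) v' _ hne hu
      rw [← e1, ← e2, hE]
  have he : v.erase (1, 0) = v'.erase (1, 0) := by
    ext p
    by_cases hp : p = (1, 0)
    · rw [hp, Finsupp.erase_same, Finsupp.erase_same]
    · rw [Finsupp.erase_ne hp, Finsupp.erase_ne hp, key p hp]
  have e1 : xs v = lin Prod.fst (v.erase (1, 0)) + v (1, 0) := by
    have h2 : lin Prod.fst (v.erase (1, 0) + Finsupp.single (1, 0) (v (1, 0))) = _ :=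
      lin_add (σ := Lt k) Prod.fst _ _
    rw [Finsupp.erase_add_single, lin_single, mul_one] at h2
    exact h2
  have e2 : xs v' = lin Prod.fst (v'.erase (1, 0)) + v' (1, 0) := by
    have h2 : lin Prod.fst (v'.erase (1, 0) + Finsupp.single (1, 0) (v' (1, 0))) = _ :=
      lin_add (σ := Lt k) Prod.fst _ _
    rw [Finsupp.erase_add_single, lin_single, mul_one] at h2
    exact h2
  rw [e1, e2, he] at hxs
  have h3 : v (1, 0) = v' (1, 0) := by omega
  ext p
  by_cases hp : p = (1, 0)
  · rw [hp, h3]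
  · exact key p hp

lemma ty_apply (v : Lt k →₀ ℕ) (q : ℕ × ℕ) :
    ty v q = lin (fun p => if nm p = q then 1 else 0) v := by
  rw [← lin_ite (ty v) q]
  exact lin_mapDomain nm _ v

/-- the loss of degree -/
theorem drop (q : ℕ × ℕ) (x D : ℕ) (v : Lt k →₀ ℕ) (hv : ∀ p ∈ v.support, 1 ≤ sz p)
    (hp : q.2 = 0 → D + 1 ≤ q.1) (hc : q.2 ≠ 0 → D + x ≤ q.1 ∧ ty v (x, q.2) = 0) :
    xs (Eh (hh q x) v) + ln v + D * ty v q ≤ xs v + lin (fun p => ∑ i, p.2 i) v := by
  have e1 : xs (Eh (hh q x) v) = lin (fun p => hh q x (∑ i, p.2 i) p.1) v :=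
    lin_Eh (k := k) Prod.fst rfl (hh q x) v
  have e2 : ln v = lin (fun _ => 1) v := Finset.sum_congr rfl fun p _ => (Nat.mul_one _).symm
  rw [e1, e2, ty_apply, ← lin_mulw, ← lin_addw, ← lin_addw]
  have e3 : xs v + lin (fun p => ∑ i, p.2 i) v = lin (fun p => p.1 + ∑ i, p.2 i) v :=
    (lin_addw (σ := Lt k) (fun p => p.1) (fun p => ∑ i, p.2 i) v).symm
  rw [e3]
  refine lin_le fun p hps => ?_
  have hsz : 1 ≤ p.1 + ∑ i, p.2 i := hv p hps
  by_cases h0 : ∑ i, p.2 i = 0
  · rw [h0, hh_zero]
    by_cases h1 : q.2 = 0 ∧ p.1 = q.1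
    · have h2 : nm p = q := Prod.ext h1.2 (h0.trans h1.1.symm)
      have := hp h1.1
      rw [if_pos h1, if_pos h2, h1.2]
      omega
    · have h2 : nm p ≠ q := fun h3 => h1 ⟨by rw [← h3]; exact h0, by rw [← h3]; rfl⟩
      rw [if_neg h1, if_neg h2]
      omega
  · rw [hh_pos _ _ _ _ h0]
    by_cases h1 : ∑ i, p.2 i = q.2
    · obtain ⟨h3, h4⟩ := hc (by omega)
      rw [if_pos h1]
      by_cases h5 : p.1 = q.1
      · have h2 : nm p = q := Prod.ext h5 h1
        rw [if_pos h2, h5, Equiv.swap_apply_left]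
        omega
      · have h6 : p.1 ≠ x := by
          intro h7
          have h8 : nm p = (x, q.2) := Prod.ext h7 h1
          rw [ty_apply] at h4
          have h9 := le_lin (fun p' : Lt k => if nm p' = (x, q.2) then 1 else 0) v p
          rw [h4, if_pos h8, mul_one] at h9
          have := Finsupp.mem_support_iff.1 hps
          omega
        have h2 : nm p ≠ q := fun h3 => h5 (by rw [← h3]; rfl)
        rw [Equiv.swap_apply_of_ne_of_ne h5 h6, if_neg h2]
        omega
    · have h2 : nm p ≠ q := fun h3 => h1 (by rw [← h3]; rfl)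
      rw [if_neg h1, if_neg h2]
      omega

open Classical in
/-- the large letter of a type -/
noncomputable def cq (b : ℕ) (S : ℕ × ℕ →₀ ℕ) : ℕ × ℕ :=
  if h : ∃ q, S q ≠ 0 ∧ b < q.1 + q.2 then h.choose else 0

open Classical in
/-- the unused index, resp. the multiplicity of the large letter -/
noncomputable def cx (b t : ℕ) (S : ℕ × ℕ →₀ ℕ) : ℕ :=
  if (cq b S).2 = 0 then S (cq b S)
  else if h : ∃ i, i < t ∧ S (i, (cq b S).2) = 0 then h.choose else 0

/-- the degree of the image -/
noncomputable def cz (b t : ℕ) (S : ℕ × ℕ →₀ ℕ) : ℕ :=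
  lin (fun q => hh (cq b S) (cx b t S) q.2 q.1) S

/-- the class of a type -/
noncomputable def cc (b t : ℕ) (S : ℕ × ℕ →₀ ℕ) : (ℕ × ℕ) × (ℕ × ℕ) :=
  (cq b S, (cx b t S, cz b t S))

lemma xs_Eh (h : ℕ → ℕ → ℕ) (v : Lt k →₀ ℕ) :
    xs (Eh h v) = lin (fun q : ℕ × ℕ => h q.2 q.1) (ty v) := by
  have e1 : xs (Eh h v) = lin (fun p => h (∑ i, p.2 i) p.1) v := lin_Eh (k := k) Prod.fst rfl h v
  rw [e1]
  exact (lin_mapDomain nm (fun q : ℕ × ℕ => h q.2 q.1) v).symm

lemma lin_us (v : Lt k →₀ ℕ) : lin (fun p => ∑ i, p.2 i) v = ∑ i, us v i := by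
  unfold us lin Finsupp.sum
  rw [Finset.sum_comm]
  exact Finset.sum_congr rfl fun p _ => Finset.mul_sum _ _ _

theorem facts {tau : Fin k → ℕ} {a b m0 t : ℕ} (ht : t = ∑ i, tau i) (hb : 2 * t < b)
    (v : Lt k →₀ ℕ) (hv : gSrc tau a b m0 v) :
    (cq b (ty v)).1 ≤ m0 ∧ (cq b (ty v)).2 ≤ t ∧ cx b t (ty v) ≤ m0 + t ∧
      cz b t (ty v) + a + b ≤ m0 + 3 * t := by
  obtain ⟨hv1, hv2, hv3, ⟨p, hps, hpb⟩, hv5⟩ := hv
  have hS1 : lin Prod.fst (ty v) = m0 := by
    rw [← hv2]
    exact lin_mapDomain nm Prod.fst v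
  have hS2 : lin Prod.snd (ty v) = t := by
    have h1 : lin Prod.snd (ty v) = lin (fun p : Lt k => ∑ i, p.2 i) v :=
      lin_mapDomain nm Prod.snd v
    rw [h1, lin_us, ht]
    exact Finset.sum_congr rfl fun i _ => hv3 i
  have hex : ∃ q, ty v q ≠ 0 ∧ b < q.1 + q.2 := by
    refine ⟨nm p, ?_, hpb⟩
    rw [ty_apply]
    have h9 := le_lin (fun p' : Lt k => if nm p' = nm p then 1 else 0) v p
    simp only [if_true, mul_one] at h9
    have := Finsupp.mem_support_iff.1 hps
    omega
  have hcq : ty v (cq b (ty v)) ≠ 0 ∧ b < (cq b (ty v)).1 + (cq b (ty v)).2 := by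
    have h1 : cq b (ty v) = hex.choose := dif_pos hex
    rw [h1]
    exact hex.choose_spec
  obtain ⟨q, hq⟩ : ∃ q, q = cq b (ty v) := ⟨_, rfl⟩
  have hx0 : cx b t (ty v) = if q.2 = 0 then ty v q
      else if h : ∃ i, i < t ∧ ty v (i, q.2) = 0 then h.choose else 0 := by rw [hq, cx]
  have hz0 : cz b t (ty v) = xs (Eh (hh q (cx b t (ty v))) v) := by rw [xs_Eh, hq, cz]
  rw [← hq] at hcq ⊢
  obtain ⟨hq1, hq2⟩ := hcq
  have h1 : q.1 ≤ m0 := by
    rw [← hS1]
    exact (Nat.le_mul_of_pos_left _ (Nat.pos_of_ne_zero hq1)).trans (le_lin Prod.fst (ty v) q)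
  have h2 : q.2 ≤ t := by
    rw [← hS2]
    exact (Nat.le_mul_of_pos_left _ (Nat.pos_of_ne_zero hq1)).trans (le_lin Prod.snd (ty v) q)
  have hS3 : lin (fun p : Lt k => ∑ i, p.2 i) v = t := by
    rw [lin_us, ht]
    exact Finset.sum_congr rfl fun i _ => hv3 i
  refine ⟨h1, h2, ?_⟩
  by_cases hc : q.2 = 0
  · rw [if_pos hc] at hx0
    have h3 : ty v q ≤ m0 := by
      rw [← hS1]
      exact (Nat.le_mul_of_pos_right _ (by omega)).trans (le_lin Prod.fst (ty v) q)
    have h4 := drop q (cx b t (ty v)) (q.1 - 1) v hv1 (fun _ => by omega) (fun h => absurd hc h)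
    rw [← hz0, hv2, hS3] at h4
    have h5 : q.1 - 1 ≤ (q.1 - 1) * ty v q := Nat.le_mul_of_pos_right _ (Nat.pos_of_ne_zero hq1)
    constructor
    · rw [hx0]
      omega
    · omega
  · have hex2 : ∃ i, i < t ∧ ty v (i, q.2) = 0 := by
      by_contra hcon
      push Not at hcon
      have h3 : insert q ((Finset.range t).image fun i => (i, q.2)) ⊆ (ty v).support := by
        intro r hr
        rw [Finset.mem_insert, Finset.mem_image] at hr
        rw [Finsupp.mem_support_iff]
        rcases hr with hr | ⟨i, hi, hr⟩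
        · rw [hr]
          exact hq1
        · rw [← hr]
          exact hcon i (Finset.mem_range.1 hi)
      have h4 : (insert q ((Finset.range t).image fun i => (i, q.2))).card = t + 1 := by
        rw [Finset.card_insert_of_notMem, Finset.card_image_of_injective, Finset.card_range]
        · intro i j hij
          exact congrArg Prod.fst hij
        · rw [Finset.mem_image]
          rintro ⟨i, hi, hr⟩
          have h5 : i = q.1 := congrArg Prod.fst hr
          have := Finset.mem_range.1 hi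
          omega
      have h5 : ∑ r ∈ insert q ((Finset.range t).image fun i => (i, q.2)), 1 ≤
          lin Prod.snd (ty v) := by
        refine le_trans ?_ (Finset.sum_le_sum_of_subset (f := fun r => ty v r * r.2) h3)
        refine Finset.sum_le_sum fun r hr => ?_
        have h6 : r.2 = q.2 := by
          rw [Finset.mem_insert, Finset.mem_image] at hr
          rcases hr with hr | ⟨i, _, hr⟩
          · rw [hr]
          · rw [← hr]
        have h7 := Finsupp.mem_support_iff.1 (h3 hr)
        rw [h6]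
        exact Nat.mul_pos (Nat.pos_of_ne_zero h7) (Nat.pos_of_ne_zero hc)
      rw [Finset.sum_const, h4, hS2, smul_eq_mul, mul_one] at h5
      omega
    rw [if_neg hc, dif_pos hex2] at hx0
    have h3 := hex2.choose_spec
    rw [← hx0] at h3
    have h4 := drop q (cx b t (ty v)) (q.1 - cx b t (ty v)) v hv1 (fun h => absurd h hc)
      (fun _ => ⟨by omega, h3.2⟩)
    rw [← hz0, hv2, hS3] at h4
    have h5 : q.1 - cx b t (ty v) ≤ (q.1 - cx b t (ty v)) * ty v q :=
      Nat.le_mul_of_pos_right _ (Nat.pos_of_ne_zero hq1)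
    constructor
    · omega
    · omega

/-- **[Q6b]** -/
theorem q6b (hFD : FD) (hM : Q8m) : Q6b := by
  intro k a b m0 w tau hab hw
  obtain ⟨t, ht⟩ : ∃ t, t = ∑ i, tau i := ⟨_, rfl⟩
  rw [← ht] at hw ⊢
  obtain ⟨z0, hz0⟩ : ∃ z0 : ℤ, z0 = (m0 : ℤ) + 6 * (t : ℕ) + 4 * (w / b : ℕ) - a - b := ⟨_, rfl⟩
  rw [← hz0]
  have hwb : (0 : ℤ) ≤ ((w / b : ℕ) : ℤ) := Int.natCast_nonneg _
  have hmono : ∀ (z : ℤ) (n : ℕ), EL tau z ≤ EL tau (z + n) := by
    intro z n
    induction n with
    | zero => rw [Nat.cast_zero, add_zero]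
    | succ n ih =>
      refine ih.trans ?_
      rw [Nat.cast_succ, ← add_assoc]
      exact hM k tau _
  have hle : ∀ z : ℤ, z ≤ z0 → EL tau z ≤ EL tau z0 := by
    intro z hz
    have h1 := hmono z (z0 - z).toNat
    rw [Int.toNat_of_nonneg (by omega)] at h1
    rw [show z + (z0 - z) = z0 by omega] at h1
    exact h1
  have fd : ∀ z, FiniteDimensional ℂ (UH (gEL tau z)) := fun z => (hFD k 0 0 tau z).2.1
  have hsub : UH (gSrc tau a b m0) ≤ UH (gEL tau m0) :=
    UH_mono fun v hv => ⟨hv.1, by rw [hv.2.1], hv.2.2.1⟩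
  have fdS : FiniteDimensional ℂ (UH (gSrc tau a b m0)) :=
    Submodule.finiteDimensional_of_le hsub
  by_cases hb : b ≤ 2 * t
  · have h1 : Module.finrank ℂ (UH (gSrc tau a b m0)) ≤ EL tau z0 :=
      (Submodule.finrank_mono hsub).trans (hle m0 (by rw [hz0]; omega))
    calc Module.finrank ℂ (UH (gSrc tau a b m0)) ≤ 1 * EL tau z0 := by rw [one_mul]; exact h1
      _ ≤ (w + 2) ^ 6 * EL tau z0 := Nat.mul_le_mul_right _ (Nat.one_le_pow _ _ (by omega))
  · rw [not_le] at hb
    have h1 := split (gSrc tau a b m0) (cc b t)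
      ((Finset.range (w + 1) ×ˢ Finset.range (w + 1)) ×ˢ
        (Finset.range (w + 1) ×ˢ Finset.range (w + 1))) (fun v hv => by
        obtain ⟨e1, e2, e3, e4⟩ := facts ht hb v hv
        simp only [Finset.mem_product, Finset.mem_range, cc]
        omega) (EL tau z0) (by
        rintro ⟨q, x, z⟩ _
        by_cases hne : ∃ v, gSrc tau a b m0 v ∧ cc b t (ty v) = (q, x, z)
        · obtain ⟨v0, hv0, hc0⟩ := hne
          have hz : (z : ℤ) ≤ z0 := by
            obtain ⟨e1, e2, e3, e4⟩ := facts ht hb v0 hv0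
            have e5 : cz b t (ty v0) = z := congrArg (fun y => y.2.2) hc0
            rw [e5] at e4
            rw [hz0]
            omega
          refine le_trans ?_ (hle z hz)
          refine relabel (hh q x) _ (gEL tau z) ?_ ?_
          · rintro v ⟨hv, hc⟩
            have c1 : cq b (ty v) = q := congrArg (fun y => y.1) hc
            have c2 : cx b t (ty v) = x := congrArg (fun y => y.2.1) hc
            have c3 : cz b t (ty v) = z := congrArg (fun y => y.2.2) hc
            refine ⟨fun p hp => ?_, ?_, fun i => ?_⟩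
            · apply one_le_sz
              rintro rfl
              exact Finsupp.mem_support_iff.1 hp (Eh_zero _ _)
            · rw [xs_Eh, ← c3, cz, c1, c2]
            · rw [← hv.2.2.1 i]
              exact lin_Eh (k := k) (fun p => p.2 i) rfl (hh q x) v
          · rintro v v' ⟨hv, hc⟩ ⟨hv', hc'⟩ hE
            have c1 : cq b (ty v) = q := congrArg (fun y => y.1) hc
            have c2 : cx b t (ty v) = x := congrArg (fun y => y.2.1) hc
            have c1' : cq b (ty v') = q := congrArg (fun y => y.1) hc'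
            have c2' : cx b t (ty v') = x := congrArg (fun y => y.2.1) hc'
            have hz1 : ∀ u : Lt k →₀ ℕ, (∀ p ∈ u.support, 1 ≤ sz p) → u 0 = 0 := by
              intro u hu
              by_contra hne
              have := hu 0 (Finsupp.mem_support_iff.2 hne)
              rw [sz_zero] at this
              omega
            have hpl : ∀ u : Lt k →₀ ℕ, cq b (ty u) = q → cx b t (ty u) = x → q.2 = 0 →
                u (q.1, 0) = x := by
              intro u e1 e2 e3
              rw [cx, e1, if_pos e3] at e2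
              rw [← e2, ty_apply, ← lin_ite u (q.1, 0)]
              refine lin_congr fun p _ => ?_
              by_cases h5 : p = (q.1, 0)
              · have h6 : nm p = q := by
                  rw [h5]
                  exact Prod.ext rfl (by simp [nm, e3])
                rw [if_pos h5, if_pos h6]
              · have h6 : nm p ≠ q := by
                  intro h7
                  apply h5
                  have h8 : ∑ i, p.2 i = 0 := by rw [← e3, ← h7]; rfl
                  exact Prod.ext (by rw [← h7]; rfl) (eq_zero_of_sum h8)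
                rw [if_neg h5, if_neg h6]
            exact hh_inj q x v v' (hz1 v hv.1) (hz1 v' hv'.1)
              (fun e3 => (hpl v c1 c2 e3).trans (hpl v' c1' c2' e3).symm)
              (hv.2.1.trans hv'.2.1.symm) hE
        · have h2 : (UH fun v : Lt k →₀ ℕ => gSrc tau a b m0 v ∧ cc b t (ty v) = (q, x, z)) =
              ⊥ := by
            rw [eq_bot_iff]
            intro f hf
            rw [Submodule.mem_bot]
            apply MvPolynomial.ext
            intro v
            rw [coeff_zero]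
            by_contra hv
            exact hne ⟨v, hf.1 v hv⟩
          rw [h2, finrank_bot]
          exact Nat.zero_le _)
    refine h1.trans (Nat.mul_le_mul_right _ ?_)
    rw [Finset.card_product, Finset.card_product, Finset.card_range]
    calc (w + 1) * (w + 1) * ((w + 1) * (w + 1)) = (w + 1) ^ 4 := by ring
      _ ≤ (w + 2) ^ 4 := Nat.pow_le_pow_left (by omega) _
      _ ≤ (w + 2) ^ 6 := Nat.pow_le_pow_right (by omega) (by norm_num)

end Vale.Agent.P181.GN.H481
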